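import Vale.Agent.P355.Assembly

open scoped InnerProductSpace BigOperators
open Finset

namespace Vale.Agent.Results.P355.SevenBasesTriples

/-- in seven pairwise unbiased bases every transition matrix has vanishing three-against-three
sums, over its columns and over its rows -/
theorem result (B : Fin 7 → OrthonormalBasis (Fin 6) ℂ (EuclideanSpace ℂ (Fin 6)))
    (hB : ∀ p q, p ≠ q → ∀ a b, ‖⟪B p a, B q b⟫_ℂ‖ ^ 2 = 1 / 6) (p q : Fin 7) (hpq : p ≠ q)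
    (e : Fin 6 → ℤ) (he : ∀ i, e i = 1 ∨ e i = -1) (h0 : ∑ i, e i = 0) :
    ∑ c, ∏ i, ⟪B p i, B q c⟫_ℂ ^ e i = 0 ∧ ∑ c, ∏ i, ⟪B p c, B q i⟫_ℂ ^ e i = 0 := by
  obtain ⟨h1, h2⟩ := Vale.Agent.P355.Assembly.trans_ct B hB p q hpq
  have h6 : (Real.sqrt 6 : ℂ) ≠ 0 :=
    Complex.ofReal_ne_zero.mpr (Real.sqrt_ne_zero'.mpr (by norm_num))
  have g1 := Vale.Agent.P355.Cert.CTBridge.ct_scale h1 (fun _ => ((Real.sqrt 6 : ℂ))⁻¹)
    (fun _ => 1) (fun _ => one_ne_zero) e he h0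
  have g2 := Vale.Agent.P355.Cert.CTBridge.ct_scale h2 (fun _ => ((Real.sqrt 6 : ℂ))⁻¹)
    (fun _ => 1) (fun _ => one_ne_zero) e he h0
  simp only [Vale.Agent.P355.Cert.CTBridge.trans, mul_one, inv_mul_cancel_left₀ h6] at g1 g2
  exact ⟨g1, g2⟩

end Vale.Agent.Results.P355.SevenBasesTriples
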